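import Vale.Agent.P307.R2.H287.Unif2

universe u

open FirstOrder Cardinal Set

namespace Vale.Agent.P307.R2.H88

open Vale.Agent.P307

/-- The dichotomy for one code: the spectrum contains a tail, or it is bounded. -/
theorem spec_tail {Λ : Type u} (c : CodeTy Λ)
    (H : ∀ K : AEC (canLang c.1.1 c.1.2), K.IsLS #Λ → (∀ ν, ∃ κ, ν < κ ∧ K.CategoricalIn κ) →
      ∃ χ, ∀ κ, χ ≤ κ → K.CategoricalIn κ) :
    ∃ χ : Cardinal.{u}, (∀ κ, χ ≤ κ → κ ∈ spec c) ∨ ∀ κ, χ ≤ κ → κ ∉ spec c := by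
  by_cases hunb : ∀ ν, ∃ κ : Cardinal.{u}, ν < κ ∧ κ ∈ spec c
  · obtain ⟨-, -, K, hK1, hK2, -⟩ := hunb 0
    have hspec : ∀ κ, κ ∈ spec c → K.CategoricalIn κ := by
      rintro κ ⟨K', h1, h2, h3⟩
      exact categoricalIn_of_part_eq (h2.trans hK2.symm) h1 hK1 h3
    obtain ⟨χ, hχ⟩ := H K hK1 fun ν => by
      obtain ⟨κ, h1, h2⟩ := hunb ν
      exact ⟨κ, h1, hspec κ h2⟩
    exact ⟨χ, Or.inl fun κ hκ => ⟨K, hK1, hK2, hχ κ hκ⟩⟩
  · push Not at hunb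
    obtain ⟨ν, hν⟩ := hunb
    exact ⟨Order.succ ν, Or.inr fun κ hκ => hν κ (Order.succ_le_iff.1 hκ)⟩

/-- Reduction of the eventual categoricity conjecture to single classes which are categorical in
unboundedly many cardinals. -/
theorem eventual_of_unbounded
    (H : ∀ (Λ : Type u) (L : Language.{u, u}) (K : AEC L), K.IsLS #Λ →
      (∀ ν, ∃ κ, ν < κ ∧ K.CategoricalIn κ) → ∃ χ, ∀ κ, χ ≤ κ → K.CategoricalIn κ)
    (l : Cardinal.{u}) :
    ∃ μ, l ≤ μ ∧ ∀ (L : Language.{u, u}) (K : AEC L), K.LS ≤ l → ∀ κ, μ ≤ κ →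
      K.CategoricalIn κ → ∀ κ', μ ≤ κ' → K.CategoricalIn κ' := by
  obtain ⟨Λ, hΛ⟩ : ∃ Λ : Type u, #Λ = l := ⟨l.out, mk_out l⟩
  choose χ hχ using fun c : CodeTy Λ => spec_tail c fun K => H Λ _ K
  have hb : BddAbove (Set.range χ) := bddAbove_of_small
  refine ⟨max l (⨆ c, χ c), le_max_left _ _, ?_⟩
  intro L K hK κ hκ hcat κ' hκ'
  have hLS : K.IsLS #Λ := AEC.isLS_of_LS_le (hK.trans hΛ.ge)
  obtain ⟨c, hc, -⟩ := exists_code K hLS
  have h1 : χ c ≤ κ := ((le_ciSup hb c).trans (le_max_right _ _)).trans hκ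
  have h2 : χ c ≤ κ' := ((le_ciSup hb c).trans (le_max_right _ _)).trans hκ'
  rcases hχ c with h | h
  · exact (hc κ').1 (h κ' h2)
  · exact absurd ((hc κ).2 hcat) (h κ h1)

/-- The same with a choice function for the categoricity cardinals, the form of the hypothesis used
in the files `R2`. -/
theorem eventual_of_unbounded'
    (H : ∀ (ℓ : Cardinal.{u}) (L : Language.{u, u}) (K : AEC L)
      (κf : Cardinal.{u} → Cardinal.{u}), K.IsLS ℓ → (∀ ν, ν < κf ν ∧ K.CategoricalIn (κf ν)) →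
      ∃ χ, ∀ κ, χ ≤ κ → K.CategoricalIn κ)
    (l : Cardinal.{u}) :
    ∃ μ, l ≤ μ ∧ ∀ (L : Language.{u, u}) (K : AEC L), K.LS ≤ l → ∀ κ, μ ≤ κ →
      K.CategoricalIn κ → ∀ κ', μ ≤ κ' → K.CategoricalIn κ' := by
  refine eventual_of_unbounded (fun Λ L K hK hunb => ?_) l
  choose κf hκf using hunb
  exact H #Λ L K κf hK hκf

end Vale.Agent.P307.R2.H88
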